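import Vale.Agent.P140.Renorm.Main

/-!
# P140: uniqueness of renormalized solutions from homogeneous and from profile-bounded data
-/

open MeasureTheory Real Vale.Agent.P140 Vale.Agent.P140.Renorm

theorem Vale.Agent.Results.P140.LocalUniqueness.result :
    (∀ f₀ : V3 → ℝ, Measurable f₀ → (∀ v, 0 ≤ f₀ v) →
      Integrable (fun v : V3 => f₀ v * (1 + ‖v‖ ^ 2)) →
      ∀ F F' : ℝ → Omega → ℝ, IsRenormSolution (fun z => f₀ z.2) F →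
        IsRenormSolution (fun z => f₀ z.2) F' → ∀ t, 0 ≤ t →
          F t =ᵐ[volume] F' t ∧
            ∫ z : Omega, F t z * ‖z.2‖ ^ 2 = ∫ z : Omega, f₀ z.2 * ‖z.2‖ ^ 2) ∧
    (∀ a M : ℝ, 0 < a → ∃ T > 0, ∀ (F₀ : Omega → ℝ) (m : V3 → ℝ), HasExpMoment a m →
      (∫ v, m v * exp (a * ‖v‖)) ≤ M → (∀ᵐ z : Omega, F₀ z ≤ m z.2) →
      ∀ F F' : ℝ → Omega → ℝ, IsRenormSolution F₀ F → IsRenormSolution F₀ F' →
        ∀ t ∈ Set.Icc 0 T, F t =ᵐ[volume] F' t) ∧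
    (∀ (ρ θ : ℝ) (u : V3), 0 < ρ → 0 < θ →
      IsRenormSolution (fun z => maxwellian ρ u θ z.2) (fun _ z => maxwellian ρ u θ z.2)) ∧
    (∀ (T C : ℝ) (g : ℝ → Omega → ℝ), IsProdMild T C g →
      ∀ (F₀ : Omega → ℝ) (F : ℝ → Omega → ℝ), IsRenormSolution F₀ F → F₀ =ᵐ[volume] g 0 →
        ∀ t ∈ Set.Icc 0 T, F t =ᵐ[volume] g t) :=
  ⟨fun _ hm h0 hi _ _ hF hF' _ ht => homogeneous_uniqueness hm h0 hi hF hF' ht,
    fun _ _ ha => local_uniqueness ha,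
    fun _ _ u hρ hθ => isRenormSolution_maxwellian hρ hθ u,
    fun _ _ _ hg _ _ h hd => eq_prodMild hg h hd⟩
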