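import Vale.Agent.P140.Slab.Final

/-!
# P140: global uniqueness of renormalized entropy solutions from large slab data
-/

open MeasureTheory Real Vale.Agent.P140 Vale.Agent.P140.Renorm Vale.Agent.P140.Slab

theorem Vale.Agent.Results.P140.SlabUniqueness.result :
    ∀ (θ A : ℝ) (f₀ : UnitAddCircle → V3 → ℝ), 0 < θ → Measurable (Function.uncurry f₀) →
      (∀ X v, 0 ≤ f₀ X v ∧ f₀ X v ≤ A * exp (-θ * ‖v‖ ^ 2)) →
      ∀ F F' : ℝ → Omega → ℝ, IsRenormSolution (fun z => f₀ (z.1 0) z.2) F →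
        IsEntropyBounded F → IsRenormSolution (fun z => f₀ (z.1 0) z.2) F' → ∀ t, 0 ≤ t →
          F t =ᵐ[volume] F' t ∧
            ∫ z : Omega, F t z * ‖z.2‖ ^ 2 = ∫ z : Omega, f₀ (z.1 0) z.2 * ‖z.2‖ ^ 2 :=
  fun _ _ _ hθ hm hb _ _ hF hE hF' _ ht => slab_uniqueness hθ hm hb hF hE hF' ht
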